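import Mathlib
import Vale.Agent.P075.Defs
import Vale.Agent.P075.Main

/-!
# Uniform `L^3 × L^3 × L^3` bound for the dyadic triangular Hilbert form
-/

open MeasureTheory Vale.Agent.P075

namespace Vale.Agent.Results.P075.DyadicTriangular

/-- The dyadic triangular Hilbert form is bounded on `L^3 × L^3 × L^3`, uniformly in the finite
set of scales and in the coefficients. -/
theorem result :
    ∃ C : ℝ, ∀ (S : Finset ℤ) (ε : ℤ → ℝ), (∀ k ∈ S, |ε k| ≤ 1) →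
      ∀ F0 F1 F2 : ℝ × ℝ → ℝ, Measurable F0 → Measurable F1 → Measurable F2 →
        (∃ B, ∀ p, |F0 p| ≤ B) → (∃ B, ∀ p, |F1 p| ≤ B) → (∃ B, ∀ p, |F2 p| ≤ B) →
        HasCompactSupport F0 → HasCompactSupport F1 → HasCompactSupport F2 →
        (∀ k ∈ S, Summable fun n : {n : ℕ × ℕ × ℕ // n.1 ^^^ n.2.1 ^^^ n.2.2 = 0} =>
          term F0 F1 F2 k n.1.1 n.1.2.1 n.1.2.2) ∧
        |∑ k ∈ S, ε k * ∑' n : {n : ℕ × ℕ × ℕ // n.1 ^^^ n.2.1 ^^^ n.2.2 = 0},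
            term F0 F1 F2 k n.1.1 n.1.2.1 n.1.2.2|
          ≤ C * (norm3 F0 * norm3 F1 * norm3 F2) := by
  refine ⟨72, fun S ε hε F0 F1 F2 m0 m1 m2 b0 b1 b2 s0 s1 s2 => ?_⟩
  let e : ℕ × ℕ ≃ {n : ℕ × ℕ × ℕ // n.1 ^^^ n.2.1 ^^^ n.2.2 = 0} :=
    { toFun := fun p => ⟨(p.1, p.2, p.1 ^^^ p.2), by simp⟩
      invFun := fun n => (n.1.1, n.1.2.1)
      left_inv := fun p => rfl
      right_inv := fun n => by
        obtain ⟨⟨a, b, c⟩, h⟩ := n
        simp only [Subtype.mk.injEq, Prod.mk.injEq, true_and]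
        exact Nat.xor_eq_zero_iff.1 h }
  have h0 : Bdd F0 := ⟨m0, b0⟩
  have h1 : Bdd F1 := ⟨m1, b1⟩
  have h2 : Bdd F2 := ⟨m2, b2⟩
  refine ⟨fun k hk => ?_, ?_⟩
  · rw [← e.summable_iff]
    exact (unnormalised_bound S ε hε h0 h1 h2 s0 s1 s2).1 k hk
  · refine le_trans (le_of_eq ?_) (dyadic_bound S ε hε h0 h1 h2 s0 s1 s2)
    congr 1
    refine Finset.sum_congr rfl fun k _ => ?_
    rw [← e.tsum_eq]
    rfl

end Vale.Agent.Results.P075.DyadicTriangular
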